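import Crest.Agent.N76.II.L0.Gs
import Crest.Agent.N76.II.L0.Bes
import Crest.Agent.N76.II.PDefs
import Crest.Agent.N76.Red.Pack
import Crest.Agent.N76.II.Dens

-- ▼ part N76/II/L0/Piece
section

/-! # Row 76, leaf L0: the pieces of one cluster (helper66). -/

set_option autoImplicit false

open MeasureTheory Set Metric
open scoped ENNReal RealInnerProductSpace

namespace Crest.Agent.N76.II.L0

open Crest.Agent.N76.Red (V)
open Crest.Agent.N76.G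

variable {d : ℕ}

theorem Qf_pt_ge {K l : ℝ} (hK : 1 ≤ K) {z u : V d × ℝ} (hz : dist z u ≤ K) {β : Ph d}
    (hβ : l * K ≤ ‖pos u.2 β - u.1‖) :
    l - 9 ≤ Real.pi * Qf 1 z.2 K u.2 ((z.1, 0) - β) := by
  have hQ := Qf_nonneg 1 z.2 K u.2 ((z.1, 0) - β)
  have hpi := Real.pi_gt_three
  have hK0 : 0 < K := by linarith
  rcases le_or_gt l 1 with hl | hl
  · nlinarith
  rw [Prod.dist_eq, max_le_iff, dist_eq_norm, Real.dist_eq] at hz
  have h1 := Qf_ge (d := d) one_pos hK (t := z.2) (t' := u.2) (hz.2.trans (by nlinarith))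
    ((z.1, 0) - β)
  set Δ : Ph d := (z.1, 0) - β with hΔ
  have e : pos u.2 β - u.1 = (z.1 - u.1) - (pos z.2 Δ + (2 * (z.2 - u.2)) • Δ.2) := by
    simp only [hΔ, pos, Prod.fst_sub, Prod.snd_sub, zero_sub, smul_neg, mul_sub, sub_smul]
    abel
  have h2 : ‖pos u.2 β - u.1‖ ≤ K + (‖pos z.2 Δ‖ + 2 * K * ‖Δ.2‖) := by
    rw [e]
    refine (norm_sub_le _ _).trans (add_le_add hz.1 ((norm_add_le _ _).trans
      (add_le_add_right ?_ _)))
    rw [norm_smul, Real.norm_eq_abs, abs_mul, abs_two]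
    gcongr
    exact hz.2
  set x := ‖pos z.2 Δ‖ / K with hx
  set y := ‖Δ.2‖ with hy
  have hx' : ‖pos z.2 Δ‖ = x * K := by rw [hx, div_mul_cancel₀ _ hK0.ne']
  have h3 : l - 1 ≤ x + 2 * y := by
    refine le_of_mul_le_mul_right ?_ hK0
    rw [hx'] at h2
    nlinarith
  have h4 : ‖pos z.2 Δ‖ ^ 2 / (8 * K ^ 2) = x ^ 2 / 8 := by
    rw [hx']; field_simp
  rw [h4] at h1
  have h5 : (l - 1) ^ 2 ≤ (x + 2 * y) ^ 2 := by gcongr
  have h6 : (l - 1) ^ 2 / 64 ≤ Qf 1 z.2 K u.2 Δ := by nlinarith [sq_nonneg (2 * x - y)]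
  nlinarith [sq_nonneg (l - 17)]

theorem pre_sq_le {K : ℝ} (hK : 0 < K) (s s' : ℝ) : pre d 1 s K s' ^ 2 ≤ (2 / K) ^ d := by
  have hσ := sig_pos (a' := K) one_pos s s'
  have h1 : 4 * 1 ^ 2 * K ^ 2 / sig 1 s K s' ≤ (2 / K) ^ 2 := by
    rw [div_pow, div_le_div_iff₀ hσ (by positivity)]
    unfold sig
    nlinarith [sq_nonneg (s - s'), sq_nonneg K]
  unfold pre
  rw [← Real.rpow_natCast, ← Real.rpow_mul (by positivity)]
  refine (Real.rpow_le_rpow (by positivity) h1 (by positivity)).trans (le_of_eq ?_)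
  rw [← Real.rpow_natCast, ← Real.rpow_mul (by positivity), ← Real.rpow_natCast]
  congr 1
  push_cast
  ring

theorem inner_pt_sq_le {K l : ℝ} (hK : 1 ≤ K) {z u : V d × ℝ} (hz : dist z u ≤ K) {β : Ph d}
    (hβ : l * K ≤ ‖pos u.2 β - u.1‖) :
    ‖inner ℂ (pt z) (gam K u.2 β)‖ ^ 2 ≤ (2 / K) ^ d * Real.exp (9 - l) := by
  have hK0 : 0 < K := by linarith
  rw [pt, norm_inner_gam one_pos hK0, mul_pow, ← Real.exp_nat_mul]
  refine mul_le_mul (pre_sq_le hK0 _ _) (Real.exp_le_exp.2 ?_) (Real.exp_pos _).le (by positivity)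
  have h1 := Qf_pt_ge hK hz hβ
  have h2 := mul_nonneg Real.pi_pos.le (Qf_nonneg 1 z.2 K u.2 ((z.1, 0) - β))
  push_cast
  linarith

theorem norm_integral_sq_le {α : Type*} [MeasurableSpace α] {μ : Measure α} {f g : α → ℂ}
    (hf : MemLp f 2 μ) {κ v : ℝ} (hκ : 0 ≤ κ) (hv : 0 ≤ v) (hμ : μ univ ≤ ENNReal.ofReal v)
    (hg : ∀ᵐ x ∂μ, ‖g x‖ ^ 2 ≤ κ) :
    ‖∫ x, g x * f x ∂μ‖ ^ 2 ≤ κ * v * ∫ x, ‖f x‖ ^ 2 ∂μ := by
  have h0 : 0 ≤ ∫ x, ‖f x‖ ^ 2 ∂μ := integral_nonneg fun x => by positivity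
  rw [← ENNReal.ofReal_le_ofReal_iff (by positivity), ENNReal.ofReal_pow (norm_nonneg _),
    ofReal_norm]
  calc ‖∫ x, g x * f x ∂μ‖ₑ ^ 2 ≤ (∫⁻ x, ENNReal.ofReal (Real.sqrt κ) * ‖f x‖ₑ ∂μ) ^ 2 := by
        gcongr
        refine (enorm_integral_le_lintegral_enorm _).trans (lintegral_mono_ae ?_)
        filter_upwards [hg] with x hx
        rw [enorm_mul, ← ofReal_norm (g x)]
        gcongr
        exact Real.le_sqrt_of_sq_le hx
    _ ≤ (∫⁻ _, ENNReal.ofReal (Real.sqrt κ) ^ 2 ∂μ) * ∫⁻ x, ‖f x‖ₑ ^ 2 ∂μ :=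
        lintegral_mul_sq_le aemeasurable_const hf.1.enorm
    _ ≤ _ := by
        rw [lintegral_const, lintegral_enorm_sq_eq hf, ← ENNReal.ofReal_pow (Real.sqrt_nonneg _),
          Real.sq_sqrt hκ, ENNReal.ofReal_mul (by positivity), ENNReal.ofReal_mul hκ]
        gcongr

/-- one point, one piece -/
theorem inner_piece_le {K l v : ℝ} (hK : 1 ≤ K) (hl : 0 ≤ l) (hv : 0 ≤ v) {z u : V d × ℝ}
    (hz : dist z u ≤ K) {A : Set (Ph d)} (hA : MeasurableSet A) {Z : Set (V d)}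
    (hZ : MeasurableSet Z) (hvol : volume Z ≤ ENNReal.ofReal v)
    (hAZ : A ⊆ tube u Z ((l + 1) * K)) (hAl : ∀ β ∈ A, l * K ≤ ‖pos u.2 β - u.1‖) (H : L2 d) :
    ‖inner ℂ (pt z) (loc K u.2 A H)‖ ^ 2 ≤
      Real.exp (9 - l) * (2 * (l + 1)) ^ d * om d * v * ∫ β in A, ‖co K u.2 H β‖ ^ 2 := by
  have hK0 : 0 < K := by linarith
  have hom := om_nonneg d
  rw [inner_loc hK0 _ hA]
  have h := norm_integral_sq_le (μ := volume.restrict A) ((memLp_co hK0 u.2 H).restrict A)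
    (g := fun β => inner ℂ (pt z) (gam K u.2 β)) (κ := (2 / K) ^ d * Real.exp (9 - l))
    (v := ((l + 1) * K) ^ d * om d * v) (by positivity) (by positivity)
    (by
      rw [Measure.restrict_apply_univ]
      refine (measure_mono hAZ).trans ?_
      rw [volume_tube u hZ (by positivity),
        ENNReal.ofReal_mul (p := ((l + 1) * K) ^ d * om d) (by positivity)]
      gcongr)
    ((ae_restrict_iff' hA).2 (Filter.Eventually.of_forall fun β hβ =>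
      inner_pt_sq_le hK hz (hAl β hβ)))
  refine h.trans (le_of_eq ?_)
  congr 1
  have : (2 * (l + 1)) ^ d = (2 / K) ^ d * ((l + 1) * K) ^ d := by
    rw [← mul_pow]; congr 1; field_simp
  rw [this]
  ring

/-- one cluster, one piece -/
theorem En_piece_le {ι : Type*} (Y : Finset ι) (p : ι → V d × ℝ) (w : ι → ℝ)
    (hw : ∀ z ∈ Y, 0 ≤ w z) {K l v N D : ℝ} (hK : 1 ≤ K) (hl : 0 ≤ l) (hv : 0 ≤ v) (hD0 : 0 ≤ D)
    {u : V d × ℝ} (hz : ∀ z ∈ Y, dist (p z) u ≤ K) (hN : ∑ z ∈ Y, w z ≤ N)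
    (hD : ∀ H : L2 d, En Y p w (fun _ => H) ≤ D * ‖H‖ ^ 2)
    {A : Set (Ph d)} (hA : MeasurableSet A) {Z : Set (V d)}
    (hZ : MeasurableSet Z) (hvol : volume Z ≤ ENNReal.ofReal v)
    (hAZ : A ⊆ tube u Z ((l + 1) * K)) (hAl : ∀ β ∈ A, l * K ≤ ‖pos u.2 β - u.1‖) (H : L2 d) :
    En Y p w (fun _ => loc K u.2 A H) ≤
      min D (N * (Real.exp (9 - l) * (2 * (l + 1)) ^ d * om d * v)) *
        ∫ β in tube u Z ((l + 1) * K), ‖co K u.2 H β‖ ^ 2 := by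
  have hK0 : 0 < K := by linarith
  have hom := om_nonneg d
  have hN0 : 0 ≤ N := (Finset.sum_nonneg hw).trans hN
  have h0 : 0 ≤ ∫ β in A, ‖co K u.2 H β‖ ^ 2 := integral_nonneg fun β => by positivity
  have h1 : ∫ β in A, ‖co K u.2 H β‖ ^ 2 ≤ ∫ β in tube u Z ((l + 1) * K), ‖co K u.2 H β‖ ^ 2 :=
    setIntegral_mono_set (Iso.integrable_co_sq hK0 _ _).integrableOn
      (Filter.Eventually.of_forall fun β => by positivity) hAZ.eventuallyLE
  refine le_trans ?_ (mul_le_mul_of_nonneg_left h1 (le_min hD0 (by positivity)))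
  rw [min_mul_of_nonneg _ _ h0]
  refine le_min ((hD _).trans (mul_le_mul_of_nonneg_left (norm_loc_sq_le hK0 _ hA H) hD0)) ?_
  rw [mul_assoc N]
  refine le_trans ?_ (mul_le_mul_of_nonneg_right hN (by positivity))
  rw [Finset.sum_mul]
  exact Finset.sum_le_sum fun z hz' => mul_le_mul_of_nonneg_left
    (inner_piece_le hK hl hv (hz z hz') hA hZ hvol hAZ hAl H) (hw z hz')

theorem loc_eq_sum {κ : Type*} {K : ℝ} (hK : 0 < K) (s : ℝ) (I : Finset κ) (N : Set (Ph d))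
    (idx : Ph d → κ) (hI : ∀ β ∈ N, idx β ∈ I)
    (hm : ∀ i ∈ I, MeasurableSet {β | β ∈ N ∧ idx β = i}) (H : L2 d) :
    loc K s N H = ∑ i ∈ I, loc K s {β | β ∈ N ∧ idx β = i} H := by
  unfold loc
  rw [← syn_sum hK s I fun i hi => memLp_indicator_co hK s (hm i hi) H]
  congr 1
  funext β
  rw [Finset.sum_apply]
  by_cases hβ : β ∈ N
  · rw [Finset.sum_eq_single (idx β)]
    · rw [indicator_of_mem hβ, indicator_of_mem (by exact ⟨hβ, rfl⟩)]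
    · intro i _ hi
      exact indicator_of_notMem (fun h => hi h.2.symm) _
    · intro h
      exact absurd (hI β hβ) h
  · rw [indicator_of_notMem hβ]
    exact (Finset.sum_eq_zero fun i _ => indicator_of_notMem (fun h => hβ h.1) _).symm

theorem En_sum_le {ι κ : Type*} (Y : Finset ι) (p : ι → V d × ℝ) (w : ι → ℝ)
    (hw : ∀ z ∈ Y, 0 ≤ w z) (I : Finset κ) (lam : κ → ℝ) (hlam : ∀ i ∈ I, 0 < lam i) {L : ℝ}
    (hL : ∑ i ∈ I, 1 / lam i ≤ L) (H : κ → L2 d) :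
    En Y p w (fun _ => ∑ i ∈ I, H i) ≤ L * ∑ i ∈ I, lam i * En Y p w (fun _ => H i) := by
  unfold En
  simp only [Finset.mul_sum]
  rw [Finset.sum_comm]
  refine Finset.sum_le_sum fun z hz => ?_
  have h1 : ‖inner ℂ (pt (p z)) (∑ i ∈ I, H i)‖ ^ 2 ≤
      L * ∑ i ∈ I, lam i * ‖inner ℂ (pt (p z)) (H i)‖ ^ 2 := by
    rw [inner_sum]
    calc ‖∑ i ∈ I, inner ℂ (pt (p z)) (H i)‖ ^ 2 ≤ (∑ i ∈ I, ‖inner ℂ (pt (p z)) (H i)‖) ^ 2 := by
          gcongr; exact norm_sum_le _ _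
      _ ≤ (∑ i ∈ I, 1 / lam i) * ∑ i ∈ I, lam i * ‖inner ℂ (pt (p z)) (H i)‖ ^ 2 :=
          Finset.sum_sq_le_sum_mul_sum_of_sq_le_mul I (fun i hi => (one_div_pos.2 (hlam i hi)).le)
            (fun i hi => mul_nonneg (hlam i hi).le (by positivity))
            (fun i hi => le_of_eq (by have := (hlam i hi).ne'; field_simp))
      _ ≤ _ := mul_le_mul_of_nonneg_right hL
          (Finset.sum_nonneg fun i hi => mul_nonneg (hlam i hi).le (by positivity))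
  refine (mul_le_mul_of_nonneg_left h1 (hw z hz)).trans (le_of_eq ?_)
  simp only [Finset.mul_sum]
  exact Finset.sum_congr rfl fun i _ => by ring

theorem sum_inv_sq_le (n : ℕ) : ∑ i ∈ Finset.range (n + 1), 1 / ((i : ℝ) + 1) ^ 2 ≤ 2 := by
  have : ∑ i ∈ Finset.range (n + 1), 1 / ((i : ℝ) + 1) ^ 2 ≤ 2 - 1 / ((n : ℝ) + 1) := by
    induction n with
    | zero => norm_num
    | succ n ih =>
      rw [Finset.sum_range_succ]
      have h0 : (0 : ℝ) ≤ n := Nat.cast_nonneg n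
      have : 1 / (((n + 1 : ℕ) : ℝ) + 1) ^ 2 ≤ 1 / ((n : ℝ) + 1) - 1 / (((n + 1 : ℕ) : ℝ) + 1) := by
        push_cast
        rw [div_sub_div _ _ (by positivity) (by positivity), div_le_div_iff₀ (by positivity)
          (by positivity)]
        nlinarith
      linarith
  have h2 : 0 ≤ 1 / ((n : ℝ) + 1) := by positivity
  linarith

/-- the near part of one cluster -/
theorem En_near_le {ι : Type*} (Y : Finset ι) (p : ι → V d × ℝ) (w : ι → ℝ)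
    (hw : ∀ z ∈ Y, 0 ≤ w z) {K N D b : ℝ} (hK : 1 ≤ K) (hD0 : 0 ≤ D)
    {u : V d × ℝ} (hz : ∀ z ∈ Y, dist (p z) u ≤ K) (hN : ∑ z ∈ Y, w z ≤ N)
    (hD : ∀ H : L2 d, En Y p w (fun _ => H) ≤ D * ‖H‖ ^ 2)
    {Φ : Set (V d)} (hΦ : MeasurableSet Φ) {lev : V d → ℕ} (hlev : Measurable lev) {M : ℕ}
    (hM : ∀ ζ ∈ Φ, lev ζ ≤ M) (v : ℕ → ℝ) (hv : ∀ m, 0 ≤ v m)
    (hvol : ∀ m, volume (Φ ∩ lev ⁻¹' {m}) ≤ ENNReal.ofReal (v m)) (H : L2 d) :
    En Y p w (fun _ => loc K u.2 (tube u Φ (b * K)) H) ≤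
      4 * ∑ i ∈ Finset.range (M + 1) ×ˢ Finset.range (⌊b⌋₊ + 1),
        ((i.1 : ℝ) + 1) ^ 2 * ((i.2 : ℝ) + 1) ^ 2 *
        (min D (N * (Real.exp (9 - i.2) * (2 * ((i.2 : ℝ) + 1)) ^ d * om d * v i.1)) *
        ∫ β in tube u (Φ ∩ lev ⁻¹' {i.1}) (((i.2 : ℝ) + 1) * K), ‖co K u.2 H β‖ ^ 2) := by
  have hK0 : 0 < K := by linarith
  set idx : Ph d → ℕ × ℕ := fun β => (lev β.2, ⌊‖pos u.2 β - u.1‖ / K⌋₊) with hidx
  have hmi : Measurable idx := (hlev.comp measurable_snd).prodMk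
    (Nat.measurable_floor.comp
      (((continuous_pos u.2).sub continuous_const).norm.div_const K).measurable)
  have hm : ∀ i : ℕ × ℕ, MeasurableSet {β | β ∈ tube u Φ (b * K) ∧ idx β = i} := fun i =>
    (measurableSet_tube u hΦ _).inter (hmi (measurableSet_singleton i))
  rw [loc_eq_sum hK0 u.2 (Finset.range (M + 1) ×ˢ Finset.range (⌊b⌋₊ + 1)) _ idx
    (fun β hβ => Finset.mem_product.2 ⟨Finset.mem_range.2 (Nat.lt_succ_of_le (hM _ hβ.1)),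
      Finset.mem_range.2 (Nat.lt_succ_of_le (Nat.floor_le_floor ((div_le_iff₀ hK0).2 hβ.2)))⟩)
    (fun i _ => hm i)]
  refine (En_sum_le Y p w hw _ (fun i : ℕ × ℕ => ((i.1 : ℝ) + 1) ^ 2 * ((i.2 : ℝ) + 1) ^ 2)
    (fun i _ => by positivity) (L := 4) ?_ _).trans ?_
  · rw [Finset.sum_product' (f := fun (m l : ℕ) => 1 / (((m : ℝ) + 1) ^ 2 * ((l : ℝ) + 1) ^ 2))]
    simp only [← one_div_mul_one_div]
    rw [← Finset.sum_mul_sum]
    have h1 := sum_inv_sq_le M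
    have h2 := sum_inv_sq_le ⌊b⌋₊
    have h3 : 0 ≤ ∑ i ∈ Finset.range (⌊b⌋₊ + 1), 1 / ((i : ℝ) + 1) ^ 2 := by positivity
    nlinarith
  · refine mul_le_mul_of_nonneg_left (Finset.sum_le_sum fun i _ =>
      mul_le_mul_of_nonneg_left ?_ (by positivity)) (by norm_num)
    refine En_piece_le Y p w hw hK (Nat.cast_nonneg _) (hv _) hD0 hz hN hD (hm i)
      (hΦ.inter (hlev (measurableSet_singleton _))) (hvol _) (fun β hβ => ?_) (fun β hβ => ?_) H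
    · obtain ⟨h1, rfl⟩ := hβ
      refine ⟨⟨h1.1, rfl⟩, (div_le_iff₀ hK0).1 (Nat.lt_floor_add_one _).le⟩
    · obtain ⟨h1, rfl⟩ := hβ
      exact (le_div_iff₀ hK0).1 (Nat.floor_le (by positivity))

/-- splitting off the far lines -/
theorem inner_split {K b Ef : ℝ} (hK : 1 ≤ K) {z u : V d × ℝ} (hz : dist z u ≤ K)
    {Φ : Set (V d)} (hΦ : MeasurableSet Φ) (H : L2 d)
    (hE : ∫ β in {β : Ph d | ‖pos u.2 β - u.1‖ ≤ b * K ∧ β.2 ∉ Φ}, ‖co K u.2 H β‖ ^ 2 ≤ Ef) :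
    ‖inner ℂ (pt z) H‖ ^ 2 ≤ 3 * ‖inner ℂ (pt z) (loc K u.2 (tube u Φ (b * K)) H)‖ ^ 2 +
      3 * (Ef + 2 ^ d * Real.exp (9 - b) * ‖H‖ ^ 2) := by
  have hK0 : 0 < K := by linarith
  set A₁ := tube u Φ (b * K) with hA₁
  set A₂ := {β : Ph d | ‖pos u.2 β - u.1‖ ≤ b * K ∧ β.2 ∉ Φ} with hA₂
  set A₃ := {β : Ph d | ‖pos u.2 β - u.1‖ ≤ b * K}ᶜ with hA₃
  have m₁ : MeasurableSet A₁ := measurableSet_tube u hΦ _
  have m₂ : MeasurableSet A₂ := (measurableSet_near u _).inter (measurable_snd hΦ).compl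
  have m₃ : MeasurableSet A₃ := (measurableSet_near u _).compl
  have e : H = loc K u.2 A₁ H + loc K u.2 A₂ H + loc K u.2 A₃ H := by
    rw [← loc_union hK0 _ m₁ m₂ (disjoint_left.2 fun β h1 h2 => h2.2 h1.1),
      ← loc_union hK0 _ (m₁.union m₂) m₃
        (disjoint_left.2 fun β h1 h2 => h2 (h1.elim (fun h => h.2) fun h => h.1))]
    have : A₁ ∪ A₂ ∪ A₃ = univ := by
      refine eq_univ_of_forall fun β => ?_
      by_cases h1 : ‖pos u.2 β - u.1‖ ≤ b * K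
      · by_cases h2 : β.2 ∈ Φ
        · exact Or.inl (Or.inl ⟨h2, h1⟩)
        · exact Or.inl (Or.inr ⟨h1, h2⟩)
      · exact Or.inr h1
    rw [this, loc_univ hK0]
  have h2 : ‖inner ℂ (pt z) (loc K u.2 A₂ H)‖ ^ 2 ≤ Ef := by
    refine le_trans ?_ ((norm_loc_sq_le hK0 _ m₂ H).trans hE)
    gcongr
    refine (norm_inner_le_norm _ _).trans (le_of_eq ?_)
    rw [pt, norm_gam one_pos, one_mul]
  have h3 : ‖inner ℂ (pt z) (loc K u.2 A₃ H)‖ ^ 2 ≤ 2 ^ d * Real.exp (9 - b) * ‖H‖ ^ 2 := by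
    have h := norm_co_syn_far one_pos hK0 z.2 u.2 (memLp_indicator_co hK0 u.2 m₃ H) (z.1, 0)
      (s := (b - 9) / Real.pi) (fun β hβ => by
        have h4 : β ∈ A₃ := by
          by_contra h5
          exact hβ (indicator_of_notMem h5 _)
        rw [div_le_iff₀ Real.pi_pos, mul_comm]
        exact Qf_pt_ge hK hz (le_of_not_ge h4))
    refine h.trans ?_
    have e1 : -Real.pi * ((b - 9) / Real.pi) = 9 - b := by
      have := Real.pi_pos.ne'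
      field_simp
      ring
    rw [e1, ← integral_co_sq hK0 u.2 H]
    refine mul_le_mul_of_nonneg_left ?_ (by positivity)
    refine integral_mono_of_nonneg (Filter.Eventually.of_forall fun β => by positivity)
      (Iso.integrable_co_sq hK0 _ _) (Filter.Eventually.of_forall fun β => ?_)
    have := norm_indicator_le_norm_self (s := A₃) (co K u.2 H) β
    simp only
    gcongr
  have h4 : ‖inner ℂ (pt z) H‖ ≤ ‖inner ℂ (pt z) (loc K u.2 A₁ H)‖ +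
      ‖inner ℂ (pt z) (loc K u.2 A₂ H)‖ + ‖inner ℂ (pt z) (loc K u.2 A₃ H)‖ := by
    conv_lhs => rw [e]
    rw [inner_add_right, inner_add_right]
    exact norm_add₃_le
  set x := ‖inner ℂ (pt z) (loc K u.2 A₁ H)‖
  set y := ‖inner ℂ (pt z) (loc K u.2 A₂ H)‖
  set y' := ‖inner ℂ (pt z) (loc K u.2 A₃ H)‖
  have h5 : ‖inner ℂ (pt z) H‖ ^ 2 ≤ (x + y + y') ^ 2 := by gcongr
  nlinarith [sq_nonneg (x - y), sq_nonneg (x - y'), sq_nonneg (y - y')]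

end Crest.Agent.N76.II.L0
end

-- ▼ part N76/II/L0/Energy
section

/-! # Row 76, leaf L0: the energy bound with explicit sums (helper66). -/

set_option autoImplicit false

open MeasureTheory Set Metric
open scoped ENNReal RealInnerProductSpace

namespace Crest.Agent.N76.II.L0

open Crest.Agent.N76.Red (V)
open Crest.Agent.N76.G

variable {d : ℕ}

theorem continuous_clow {ι : Type*} (𝒞 : Finset ι) (p : ι → V d × ℝ) (K rlo : ℝ) (k : ι) :
    Continuous (clow 𝒞 p K rlo k) :=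
  continuous_finsetSum _ fun _ _ => continuous_gs _ _ _ _

theorem one_le_clow {ι : Type*} {𝒞 : Finset ι} (p : ι → V d × ℝ) {K rlo : ℝ} (hK : 0 < K)
    (hr : 0 ≤ rlo) {k : ι} (hk : k ∈ 𝒞) (ζ : V d) : 1 ≤ clow 𝒞 p K rlo k ζ := by
  classical
  unfold clow
  rw [← gs_self hK (Real.pi / 8) (p k) ζ]
  exact Finset.single_le_sum (f := fun c => Gs K (Real.pi / 8) (p k) (p c) ζ)
    (fun _ _ => gs_nonneg hK _ _ _ _) (Finset.mem_filter.2 ⟨hk, by simpa using hr⟩)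

theorem clow_le_card {ι : Type*} (𝒞 : Finset ι) (p : ι → V d × ℝ) {K : ℝ} (rlo : ℝ) (hK : 0 < K)
    (k : ι) (ζ : V d) : clow 𝒞 p K rlo k ζ ≤ 𝒞.card := by
  unfold clow
  refine (Finset.sum_le_card_nsmul _ _ 1 fun c _ =>
    gs_le_one hK (by have := Real.pi_pos; positivity) _ _ _).trans ?_
  rw [nsmul_eq_mul, mul_one]
  exact_mod_cast Finset.card_filter_le _ _

/-- dyadic level of `clow` -/
noncomputable def lv {ι : Type*} (𝒞 : Finset ι) (p : ι → V d × ℝ) (K rlo : ℝ) (k : ι)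
    (ζ : V d) : ℕ := Nat.log 2 ⌊clow 𝒞 p K rlo k ζ⌋₊

theorem measurable_lv {ι : Type*} (𝒞 : Finset ι) (p : ι → V d × ℝ) (K rlo : ℝ) (k : ι) :
    Measurable (lv 𝒞 p K rlo k) :=
  (measurable_of_countable (Nat.log 2)).comp
    (Nat.measurable_floor.comp (continuous_clow 𝒞 p K rlo k).measurable)

theorem lv_le {ι : Type*} (𝒞 : Finset ι) (p : ι → V d × ℝ) {K : ℝ} (rlo : ℝ) (hK : 0 < K)
    (k : ι) (ζ : V d) : lv 𝒞 p K rlo k ζ ≤ Nat.log 2 𝒞.card :=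
  Nat.log_mono_right (Nat.floor_le_of_le (clow_le_card 𝒞 p rlo hK k ζ))

theorem clow_le_lv {ι : Type*} (𝒞 : Finset ι) (p : ι → V d × ℝ) (K rlo : ℝ)
    (k : ι) (ζ : V d) : clow 𝒞 p K rlo k ζ ≤ 2 * 2 ^ lv 𝒞 p K rlo k ζ := by
  have h1 := Nat.lt_floor_add_one (clow 𝒞 p K rlo k ζ)
  have h2 := Nat.lt_pow_succ_log_self (b := 2) (by norm_num) ⌊clow 𝒞 p K rlo k ζ⌋₊
  have h3 : ((⌊clow 𝒞 p K rlo k ζ⌋₊ + 1 : ℕ) : ℝ) ≤ ((2 ^ (lv 𝒞 p K rlo k ζ + 1) : ℕ) : ℝ) :=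
    Nat.cast_le.2 h2
  push_cast at h3
  rw [pow_succ'] at h3
  linarith

theorem lv_le_clow {ι : Type*} {𝒞 : Finset ι} (p : ι → V d × ℝ) {K rlo : ℝ} (hK : 0 < K)
    (hr : 0 ≤ rlo) {k : ι} (hk : k ∈ 𝒞) (ζ : V d) :
    2 ^ lv 𝒞 p K rlo k ζ ≤ clow 𝒞 p K rlo k ζ := by
  have h0 := one_le_clow p hK hr hk ζ
  have h1 : ⌊clow 𝒞 p K rlo k ζ⌋₊ ≠ 0 := (Nat.floor_pos.2 h0).ne'
  have h2 : ((2 ^ lv 𝒞 p K rlo k ζ : ℕ) : ℝ) ≤ (⌊clow 𝒞 p K rlo k ζ⌋₊ : ℝ) :=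
    Nat.cast_le.2 (Nat.pow_log_le_self 2 h1)
  push_cast at h2
  exact h2.trans (Nat.floor_le (by linarith))

theorem integral_lw {c : Ph d → ℂ} (hc : MemLp c 2 volume) (Λ : Finset (V d))
    {W : V d → V d × ℝ → ℝ} {Mx r₀ K : ℝ} (hW : ∀ ζ ∈ Λ, Nice (W ζ) Mx r₀) (hK : 0 ≤ K)
    {A B : ℝ} (hAB : A ≤ B) :
    ∫ β, lw Λ K W A B β * ‖c β‖ ^ 2 =
      ∑ ζ ∈ Λ, ∫ β : Ph d, Real.exp (-K * ‖β.2 - ζ‖) * xray (W ζ) A B β * ‖c β‖ ^ 2 := by
  rw [← integral_finsetSum _ fun ζ hζ => integrable_xray hc (hW ζ hζ) hK ζ hAB]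
  simp only [lw, Finset.sum_mul]

/-- the Bessel sum over tubes -/
theorem bes_tube {C : ℝ} (hC : 0 ≤ C) (hLB : LBC d C) {ι : Type} {𝒞 : Finset ι}
    {p : ι → V d × ℝ} {K rlo a C₂ r₀ t μ ρ : ℝ} {Λ : Finset (V d)} {J : V d → ℕ}
    {js : V d → ι → ℕ} {Ω : V d → ℕ → V d × ℝ → ℝ}
    (hSD : ∀ ζ ∈ Λ, SD 𝒞 p K rlo a C₂ r₀ ζ (J ζ) (js ζ) (Ω ζ))
    (hΛ : ∀ x : V d, ‖x‖ ≤ 3 → ∃ ζ ∈ Λ, ‖x - ζ‖ ≤ 1 / K)
    (hK : 0 < K) (hKa : K ≤ a) (hr : K * a ≤ rlo) (hC₂ : 0 ≤ C₂) (hμ : 0 ≤ μ) (hρ : 0 ≤ ρ)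
    (hρ' : K * (ρ * K) ≤ rlo) (ht : ∀ k ∈ 𝒞, t ≤ (p k).2 ∧ (p k).2 ≤ t + a ^ 2)
    {c : Ph d → ℂ} (hc : MemLp c 2 volume) (S : Finset ι) (hS : S ⊆ 𝒞) (Z : ι → Set (V d))
    (hZ : ∀ k ∈ S, MeasurableSet (Z k))
    (hcl : ∀ k ∈ S, ∀ ζ' ∈ Z k, ‖ζ'‖ ≤ 3 ∧ clow 𝒞 p K rlo k ζ' ≤ μ) :
    ∑ k ∈ S, ∫ β in tube (p k) (Z k) (ρ * K), ‖co K (p k).2 (syn a t c) β‖ ^ 2 ≤
      ρ ^ d * om d ^ 2 * (C * (μ + Real.exp Real.pi * C₂) * Real.exp 5) *
        ∫ β, lw Λ K (fun ζ => WW rlo (J ζ) (Ω ζ)) (t - a ^ 2 / 2) (t + 3 * a ^ 2 / 2) β *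
          ‖c β‖ ^ 2 := by
  classical
  have ha : 0 < a := by linarith
  have ha2 : 0 < a ^ 2 := by positivity
  have hr0 : 0 < rlo := lt_of_lt_of_le (by positivity) hr
  have hW : ∀ ζ ∈ Λ, Nice (WW rlo (J ζ) (Ω ζ)) (2 / rlo) r₀ := fun ζ hζ =>
    nice_WW hr0 _ (hSD ζ hζ).2.2.2.1
  have hAB : t - a ^ 2 / 2 ≤ t + 3 * a ^ 2 / 2 := by linarith
  set I : V d → ℝ := fun ζ => ∫ β : Ph d, Real.exp (-K * ‖β.2 - ζ‖) *
    xray (WW rlo (J ζ) (Ω ζ)) (t - a ^ 2 / 2) (t + 3 * a ^ 2 / 2) β * ‖c β‖ ^ 2 with hI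
  have hI0 : ∀ ζ ∈ Λ, 0 ≤ I ζ := fun ζ hζ => integral_nonneg fun β =>
    mul_nonneg (mul_nonneg (Real.exp_pos _).le (xray_nonneg' (hW ζ hζ) hAB β)) (by positivity)
  set E := C * (μ + Real.exp Real.pi * C₂) * Real.exp 5 with hE
  have hE0 : 0 ≤ E := by positivity
  have h := shear_sum S p (fun k β => ‖co K (p k).2 (syn a t c) β‖ ^ 2)
    (fun k _ => Iso.integrable_co_sq hK _ _) Z hZ (ρ := ρ * K) (δ := 1 / K) (by positivity)
    (by positivity) Λ (fun ζ => E * I ζ) (fun x hx ζ' => by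
      rcases (S.filter fun k => ζ' ∈ Z k).eq_empty_or_nonempty with h0 | ⟨k, hk⟩
      · rw [h0, Finset.sum_empty]
        exact Finset.sum_nonneg fun ζ hζ => mul_nonneg hE0 (hI0 ζ (Finset.mem_filter.1 hζ).1)
      · obtain ⟨ζ, hζ, hζ'⟩ := hΛ ζ' (hcl k (Finset.mem_filter.1 hk).1 ζ' (Finset.mem_filter.1 hk).2).1
        refine (bes_dir hC hLB (hSD ζ hζ) hK hKa hr hC₂ hμ hζ'
          ((mul_le_mul_of_nonneg_left hx hK.le).trans hρ') ht hc _
          (fun k' hk' => hS (Finset.mem_filter.1 hk').1)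
          (fun k' hk' => (hcl k' (Finset.mem_filter.1 hk').1 ζ' (Finset.mem_filter.1 hk').2).2)).trans
          ?_
        exact Finset.single_le_sum (f := fun ζ => E * I ζ)
          (fun ζ hζ => mul_nonneg hE0 (hI0 ζ (Finset.mem_filter.1 hζ).1))
          (Finset.mem_filter.2 ⟨hζ, hζ'⟩))
  refine h.trans (le_of_eq ?_)
  rw [integral_lw hc Λ hW hK.le hAB, ← Finset.mul_sum]
  have : ρ ^ d = (ρ * K) ^ d * (1 / K) ^ d := by
    rw [← mul_pow]; congr 1; field_simp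
  rw [this]
  ring

open Classical in
/-- the energy bound with explicit sums -/
theorem energy {C : ℝ} (hC : 0 ≤ C) (hLB : LBC d C) {ι : Type} {𝒞 : Finset ι}
    {p : ι → V d × ℝ} {K rlo a C₂ r₀ t b N : ℝ} {Λ : Finset (V d)} {J : V d → ℕ}
    {js : V d → ι → ℕ} {Ω : V d → ℕ → V d × ℝ → ℝ}
    (hSD : ∀ ζ ∈ Λ, SD 𝒞 p K rlo a C₂ r₀ ζ (J ζ) (js ζ) (Ω ζ))
    (hΛ : ∀ x : V d, ‖x‖ ≤ 3 → ∃ ζ ∈ Λ, ‖x - ζ‖ ≤ 1 / K)
    (hK : 1 ≤ K) (hKa : K ≤ a) (hr : K * a ≤ rlo) (hC₂ : 0 ≤ C₂) (hb : 0 ≤ b) (hN0 : 0 ≤ N)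
    (hb' : K * ((b + 1) * K) ≤ rlo) (ht : ∀ k ∈ 𝒞, t ≤ (p k).2 ∧ (p k).2 ≤ t + a ^ 2)
    (v : ℕ → ℝ) (hv : ∀ m, 0 ≤ v m)
    (hvol : ∀ k ∈ 𝒞, ∀ m : ℕ, volume {ζ : V d | ‖ζ‖ ≤ 3 ∧ 2 ^ m ≤ clow 𝒞 p K rlo k ζ} ≤
      ENNReal.ofReal (v m))
    {w : ι → ℝ} {Y : Finset ι} (hw : ∀ z ∈ Y, 0 ≤ w z) {π : ι → ι} {D : ℝ} (hD0 : 0 ≤ D)
    (hπ : ∀ z ∈ Y, π z ∈ 𝒞 ∧ dist (p z) (p (π z)) ≤ K)
    (hN : ∀ c ∈ 𝒞, ∑ z ∈ Y.filter (fun z => π z = c), w z ≤ N)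
    (hD : ∀ c ∈ 𝒞, ∀ H : L2 d, En (Y.filter fun z => π z = c) p w (fun _ => H) ≤ D * ‖H‖ ^ 2)
    {c : Ph d → ℂ} {φ₀ Ef : ℝ} {Φ : ι → Set (V d)} (hc : MemLp c 2 volume) (hφ : 0 ≤ φ₀)
    (hΦ : ∀ z ∈ Y, MeasurableSet (Φ (π z)) ∧ volume (Φ (π z)) ≤ ENNReal.ofReal φ₀ ∧
      Φ (π z) ⊆ closedBall 0 3 ∧
      ∫ β in {β : Ph d | ‖pos (p (π z)).2 β - (p (π z)).1‖ ≤ b * K ∧ β.2 ∉ Φ (π z)},
        ‖co K (p (π z)).2 (syn a t c) β‖ ^ 2 ≤ Ef) :
    En Y p w (fun _ => syn a t c) ≤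
      12 * om d ^ 2 * (C * (2 + Real.exp Real.pi * C₂) * Real.exp 5) *
        (∑ i ∈ Finset.range (Nat.log 2 𝒞.card + 1) ×ˢ Finset.range (⌊b⌋₊ + 1),
          ((i.1 : ℝ) + 1) ^ 2 * ((i.2 : ℝ) + 1) ^ (d + 2) * 2 ^ i.1 *
          min D (N * (Real.exp (9 - i.2) * (2 * ((i.2 : ℝ) + 1)) ^ d * om d * min φ₀ (v i.1)))) *
        (∫ β, lw Λ K (fun ζ => WW rlo (J ζ) (Ω ζ)) (t - a ^ 2 / 2) (t + 3 * a ^ 2 / 2) β *
          ‖c β‖ ^ 2)
      + 3 * (∑ z ∈ Y, w z) * (Ef + 2 ^ d * Real.exp (9 - b) * ∫ β, ‖c β‖ ^ 2) := by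
  have hK0 : 0 < K := by linarith
  have ha : 0 < a := by linarith
  have ha2 : 0 < a ^ 2 := by positivity
  have hr0 : 0 < rlo := lt_of_lt_of_le (by positivity) hr
  have hom := om_nonneg d
  set H := syn a t c with hH
  set I := ∫ β, lw Λ K (fun ζ => WW rlo (J ζ) (Ω ζ)) (t - a ^ 2 / 2) (t + 3 * a ^ 2 / 2) β *
    ‖c β‖ ^ 2 with hI
  have hI0 : 0 ≤ I := integral_nonneg fun β => mul_nonneg (Finset.sum_nonneg fun ζ hζ =>
    mul_nonneg (Real.exp_pos _).le (xray_nonneg' (nice_WW hr0 _ (hSD ζ hζ).2.2.2.1)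
      (by linarith) β)) (by positivity)
  set S := Y.image π with hS
  have hS𝒞 : S ⊆ 𝒞 := fun k hk => by
    obtain ⟨z, hz, rfl⟩ := Finset.mem_image.1 hk
    exact (hπ z hz).1
  have hΦ' : ∀ k ∈ S, MeasurableSet (Φ k) ∧ volume (Φ k) ≤ ENNReal.ofReal φ₀ ∧
      Φ k ⊆ closedBall 0 3 := fun k hk => by
    obtain ⟨z, hz, rfl⟩ := Finset.mem_image.1 hk
    exact ⟨(hΦ z hz).1, (hΦ z hz).2.1, (hΦ z hz).2.2.1⟩
  set Nr : ι → L2 d := fun k => loc K (p k).2 (tube (p k) (Φ k) (b * K)) H with hNr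
  set II := Finset.range (Nat.log 2 𝒞.card + 1) ×ˢ Finset.range (⌊b⌋₊ + 1) with hII
  set κ : ℕ × ℕ → ℝ := fun i =>
    min D (N * (Real.exp (9 - i.2) * (2 * ((i.2 : ℝ) + 1)) ^ d * om d * min φ₀ (v i.1))) with hκ
  have hκ0 : ∀ i, 0 ≤ κ i := fun i => le_min hD0 (by
    have := le_min hφ (hv i.1); positivity)
  set Z : ℕ → ι → Set (V d) := fun m k => Φ k ∩ lv 𝒞 p K rlo k ⁻¹' {m} with hZ
  set E := C * (2 + Real.exp Real.pi * C₂) * Real.exp 5 with hE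
  have h1 : En Y p w (fun _ => H) ≤ 3 * En Y p w (fun z => Nr (π z)) +
      3 * (∑ z ∈ Y, w z) * (Ef + 2 ^ d * Real.exp (9 - b) * ∫ β, ‖c β‖ ^ 2) := by
    unfold En
    rw [Finset.mul_sum, Finset.mul_sum, Finset.sum_mul, ← Finset.sum_add_distrib]
    refine Finset.sum_le_sum fun z hz => ?_
    have h2 := inner_split hK (hπ z hz).2 (hΦ z hz).1 H (hΦ z hz).2.2.2
    have h3 : 2 ^ d * Real.exp (9 - b) * ‖H‖ ^ 2 ≤ 2 ^ d * Real.exp (9 - b) * ∫ β, ‖c β‖ ^ 2 :=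
      mul_le_mul_of_nonneg_left (norm_syn_sq_le ha t hc) (by positivity)
    have h4 := mul_le_mul_of_nonneg_left
      (h2.trans (add_le_add_right (mul_le_mul_of_nonneg_left (add_le_add_right h3 Ef)
        (by norm_num : (0 : ℝ) ≤ 3)) _)) (hw z hz)
    refine h4.trans (le_of_eq ?_)
    simp only [hNr]
    ring
  have h2 : En Y p w (fun z => Nr (π z)) =
      ∑ k ∈ S, En (Y.filter fun z => π z = k) p w (fun _ => Nr k) := by
    unfold En
    rw [← Finset.sum_fiberwise_of_maps_to (g := π) (t := S)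
      (fun z hz => Finset.mem_image_of_mem π hz)]
    refine Finset.sum_congr rfl fun k _ => Finset.sum_congr rfl fun z hz => ?_
    simp only [(Finset.mem_filter.1 hz).2]
  have h3 : ∀ k ∈ S, En (Y.filter fun z => π z = k) p w (fun _ => Nr k) ≤
      4 * ∑ i ∈ II, ((i.1 : ℝ) + 1) ^ 2 * ((i.2 : ℝ) + 1) ^ 2 * (κ i *
        ∫ β in tube (p k) (Z i.1 k) (((i.2 : ℝ) + 1) * K), ‖co K (p k).2 H β‖ ^ 2) := by
    intro k hk
    refine En_near_le _ p w (fun z hz => hw z (Finset.mem_filter.1 hz).1) hK hD0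
      (fun z hz => by
        have := (hπ z (Finset.mem_filter.1 hz).1).2
        rwa [(Finset.mem_filter.1 hz).2] at this)
      (hN k (hS𝒞 hk)) (hD k (hS𝒞 hk)) (hΦ' k hk).1 (measurable_lv 𝒞 p K rlo k)
      (fun ζ _ => lv_le 𝒞 p rlo hK0 k ζ) (fun m => min φ₀ (v m)) (fun m => le_min hφ (hv m))
      (fun m => ?_) H
    rw [ENNReal.ofReal_min]
    refine le_min ((measure_mono inter_subset_left).trans (hΦ' k hk).2.1)
      ((measure_mono fun ζ hζ => ?_).trans (hvol k (hS𝒞 hk) m))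
    obtain ⟨h4, h5⟩ := hζ
    have h6 : lv 𝒞 p K rlo k ζ = m := h5
    exact ⟨by simpa using (hΦ' k hk).2.2 h4, h6 ▸ lv_le_clow p hK0 hr0.le (hS𝒞 hk) ζ⟩
  have h4 : ∀ i ∈ II, ∑ k ∈ S, ∫ β in tube (p k) (Z i.1 k) (((i.2 : ℝ) + 1) * K),
      ‖co K (p k).2 H β‖ ^ 2 ≤ ((i.2 : ℝ) + 1) ^ d * om d ^ 2 * (2 ^ i.1 * E) * I := by
    intro i hi
    have h5 : (i.2 : ℝ) ≤ b := by
      have := Nat.le_of_lt_succ (Finset.mem_range.1 (Finset.mem_product.1 hi).2)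
      exact (Nat.cast_le.2 this).trans (Nat.floor_le hb)
    refine (bes_tube hC hLB hSD hΛ hK0 hKa hr hC₂ (μ := 2 * 2 ^ i.1) (by positivity)
      (ρ := (i.2 : ℝ) + 1) (by positivity) (le_trans (by gcongr) hb') ht hc S hS𝒞 (Z i.1)
      (fun k hk => (hΦ' k hk).1.inter (measurable_lv 𝒞 p K rlo k (measurableSet_singleton _)))
      (fun k hk ζ hζ => ⟨by simpa using (hΦ' k hk).2.2 hζ.1, ?_⟩)).trans ?_
    · have h6 : lv 𝒞 p K rlo k ζ = i.1 := hζ.2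
      exact h6 ▸ clow_le_lv 𝒞 p K rlo k ζ
    · refine mul_le_mul_of_nonneg_right (mul_le_mul_of_nonneg_left ?_ (by positivity)) hI0
      have h7 : (1 : ℝ) ≤ 2 ^ i.1 := one_le_pow₀ (by norm_num)
      have h8 : 0 ≤ Real.exp Real.pi * C₂ := by positivity
      have h9 : 2 * 2 ^ i.1 + Real.exp Real.pi * C₂ ≤ 2 ^ i.1 * (2 + Real.exp Real.pi * C₂) := by
        nlinarith
      calc C * (2 * 2 ^ i.1 + Real.exp Real.pi * C₂) * Real.exp 5
          ≤ C * (2 ^ i.1 * (2 + Real.exp Real.pi * C₂)) * Real.exp 5 := by gcongr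
        _ = _ := by rw [hE]; ring
  refine h1.trans (add_le_add_left ?_ _)
  rw [h2]
  calc 3 * ∑ k ∈ S, En (Y.filter fun z => π z = k) p w (fun _ => Nr k)
      ≤ 3 * ∑ k ∈ S, 4 * ∑ i ∈ II, ((i.1 : ℝ) + 1) ^ 2 * ((i.2 : ℝ) + 1) ^ 2 * (κ i *
        ∫ β in tube (p k) (Z i.1 k) (((i.2 : ℝ) + 1) * K), ‖co K (p k).2 H β‖ ^ 2) :=
        mul_le_mul_of_nonneg_left (Finset.sum_le_sum h3) (by norm_num)
    _ = 12 * ∑ i ∈ II, ((i.1 : ℝ) + 1) ^ 2 * ((i.2 : ℝ) + 1) ^ 2 * (κ i *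
        ∑ k ∈ S, ∫ β in tube (p k) (Z i.1 k) (((i.2 : ℝ) + 1) * K), ‖co K (p k).2 H β‖ ^ 2) := by
        rw [← Finset.mul_sum, Finset.sum_comm, ← mul_assoc]
        simp only [Finset.mul_sum]
        norm_num
    _ ≤ 12 * ∑ i ∈ II, ((i.1 : ℝ) + 1) ^ 2 * ((i.2 : ℝ) + 1) ^ 2 * (κ i *
        (((i.2 : ℝ) + 1) ^ d * om d ^ 2 * (2 ^ i.1 * E) * I)) := by
        refine mul_le_mul_of_nonneg_left (Finset.sum_le_sum fun i hi => ?_) (by norm_num)
        exact mul_le_mul_of_nonneg_left (mul_le_mul_of_nonneg_left (h4 i hi) (hκ0 i))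
          (by positivity)
    _ = _ := by
        simp only [Finset.mul_sum, Finset.sum_mul]
        exact Finset.sum_congr rfl fun i _ => by ring

end Crest.Agent.N76.II.L0
end

-- ▼ part N76/II/L0/Net
section

/-! # Row 76, leaf L0: nets of directions, counting of separated centres (helper66). -/

set_option autoImplicit false

open MeasureTheory Set Metric
open scoped ENNReal RealInnerProductSpace

namespace Crest.Agent.N76.II.L0

open Crest.Agent.N76.Red (V)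
open Crest.Agent.N76.G

variable {d : ℕ}

theorem sum_pow_exp_le (k : ℕ) {θ : ℝ} (hθ : 0 < θ) :
    ∃ C : ℝ, 1 ≤ C ∧ ∀ s : Finset ℕ, ∑ n ∈ s, ((n : ℝ) + 1) ^ k * Real.exp (-θ * n) ≤ C := by
  have h1 : Summable fun n : ℕ => ((n : ℝ) + 1) ^ k * Real.exp (-θ * n) := by
    have h := (summable_nat_add_iff 1).2 (Real.summable_pow_mul_exp_neg_nat_mul k hθ)
    refine (h.mul_left (Real.exp θ)).congr fun n => ?_
    push_cast
    rw [mul_left_comm, ← Real.exp_add]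
    congr 2
    ring
  refine ⟨max 1 (∑' n : ℕ, ((n : ℝ) + 1) ^ k * Real.exp (-θ * n)), le_max_left _ _, fun s => ?_⟩
  exact (h1.sum_le_tsum s fun n _ => by positivity).trans (le_max_right _ _)

theorem card_sep_le (s : Finset (V d)) (x₀ : V d) {K r : ℝ} (hK : 0 < K) (hr : 0 ≤ r)
    (hs : ∀ c ∈ s, ‖c - x₀‖ ≤ r) (h : ∀ c ∈ s, ∀ c' ∈ s, c ≠ c' → 1 / K ≤ ‖c - c'‖) :
    (s.card : ℝ) ≤ (2 * (K * r) + 1) ^ d := by
  classical
  have hinj : Function.Injective fun x : V d => K • x := smul_right_injective _ hK.ne'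
  rw [← Finset.card_image_of_injective s hinj]
  refine Red.card_le_of_sep _ (K • x₀) (by positivity) ?_ ?_
  · intro c hc
    obtain ⟨c, hc', rfl⟩ := Finset.mem_image.1 hc
    rw [← smul_sub, norm_smul, Real.norm_of_nonneg hK.le]
    exact mul_le_mul_of_nonneg_left (hs c hc') hK.le
  · intro c hc c' hc' hne
    obtain ⟨c, hc1, rfl⟩ := Finset.mem_image.1 hc
    obtain ⟨c', hc2, rfl⟩ := Finset.mem_image.1 hc'
    have := h c hc1 c' hc2 (fun e => hne (by rw [e]))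
    rw [← smul_sub, norm_smul, Real.norm_of_nonneg hK.le]
    rw [div_le_iff₀ hK] at this
    linarith

theorem exists_sep_net {K : ℝ} (hK : 0 < K) :
    ∃ Y : Finset (V d), (∀ y ∈ Y, ‖y‖ ≤ 3) ∧ (∀ c ∈ Y, ∀ c' ∈ Y, c ≠ c' → 1 / K ≤ ‖c - c'‖) ∧
      ∀ x : V d, ‖x‖ ≤ 3 → ∃ y ∈ Y, ‖x - y‖ ≤ 1 / K := by
  classical
  set P : ℕ → Prop := fun k => ∃ Y : Finset (V d), (∀ y ∈ Y, ‖y‖ ≤ 3) ∧
    (∀ c ∈ Y, ∀ c' ∈ Y, c ≠ c' → 1 / K ≤ ‖c - c'‖) ∧ Y.card = k with hP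
  obtain ⟨B, hB⟩ := exists_nat_ge ((2 * (K * 3) + 1) ^ d)
  have hle : ∀ k, P k → k ≤ B := by
    rintro k ⟨Y, h1, h2, rfl⟩
    have := card_sep_le Y 0 hK (by norm_num : (0 : ℝ) ≤ 3) (fun c hc => by simpa using h1 c hc) h2
    exact_mod_cast this.trans hB
  have h0 : P 0 := ⟨∅, by simp, by simp, rfl⟩
  obtain ⟨Y, h1, h2, h3⟩ : P (Nat.findGreatest P B) := Nat.findGreatest_spec (Nat.zero_le B) h0
  refine ⟨Y, h1, h2, fun x hx => ?_⟩
  by_contra hcon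
  push Not at hcon
  have hxY : x ∉ Y := fun hxY => by
    have := hcon x hxY
    have h0 : 0 < 1 / K := by positivity
    simp only [sub_self, norm_zero] at this
    linarith
  have hP' : P (Y.card + 1) := by
    refine ⟨insert x Y, ?_, ?_, Finset.card_insert_of_notMem hxY⟩
    · intro y hy
      rcases Finset.mem_insert.1 hy with rfl | hy
      exacts [hx, h1 y hy]
    · intro c hc c' hc' hcd
      rcases Finset.mem_insert.1 hc with rfl | hc1 <;>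
        rcases Finset.mem_insert.1 hc' with rfl | hc2
      · exact absurd rfl hcd
      · exact (hcon c' hc2).le
      · rw [norm_sub_rev]; exact (hcon c hc1).le
      · exact h2 c hc1 c' hc2 hcd
  have := Nat.le_findGreatest (hle _ hP') hP'
  omega

/-- the net of directions -/
theorem exists_dirnet (d : ℕ) : ∃ C : ℝ, 1 ≤ C ∧ ∀ K : ℝ, 1 ≤ K → ∃ Λ : Finset (V d),
    (∀ ζ ∈ Λ, ‖ζ‖ ≤ 3) ∧ (∀ x : V d, ‖x‖ ≤ 3 → ∃ ζ ∈ Λ, ‖x - ζ‖ ≤ 1 / K) ∧
    (Λ.card : ℝ) ≤ C * K ^ d ∧ ∀ ξ : V d, ∑ ζ ∈ Λ, Real.exp (-K * ‖ξ - ζ‖) ≤ C := by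
  classical
  obtain ⟨C, hC1, hC⟩ := sum_pow_exp_le d one_pos
  refine ⟨7 ^ d * C, one_le_mul_of_one_le_of_one_le (one_le_pow₀ (by norm_num)) hC1,
    fun K hK => ?_⟩
  have hK0 : 0 < K := by linarith
  obtain ⟨Λ, h1, h2, h3⟩ := exists_sep_net (d := d) hK0
  refine ⟨Λ, h1, h3, ?_, fun ξ => ?_⟩
  · have := card_sep_le Λ 0 hK0 (by norm_num : (0 : ℝ) ≤ 3) (fun c hc => by simpa using h1 c hc) h2
    refine this.trans ?_
    calc (2 * (K * 3) + 1) ^ d ≤ (7 * K) ^ d := by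
          gcongr; linarith
      _ = 7 ^ d * 1 * K ^ d := by rw [mul_pow, mul_one]
      _ ≤ _ := by gcongr
  · set n : V d → ℕ := fun ζ => ⌊K * ‖ξ - ζ‖⌋₊ with hn
    calc ∑ ζ ∈ Λ, Real.exp (-K * ‖ξ - ζ‖) ≤ ∑ ζ ∈ Λ, Real.exp (-1 * (n ζ : ℝ)) := by
          refine Finset.sum_le_sum fun ζ _ => Real.exp_le_exp.2 ?_
          have := Nat.floor_le (show 0 ≤ K * ‖ξ - ζ‖ by positivity)
          simp only [hn]
          linarith
      _ = ∑ m ∈ Λ.image n, (Λ.filter fun ζ => n ζ = m).card • Real.exp (-1 * (m : ℝ)) :=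
          Finset.sum_comp (fun m : ℕ => Real.exp (-1 * (m : ℝ))) n
      _ ≤ ∑ m ∈ Λ.image n, 7 ^ d * (((m : ℝ) + 1) ^ d * Real.exp (-1 * (m : ℝ))) := by
          refine Finset.sum_le_sum fun m _ => ?_
          rw [nsmul_eq_mul, ← mul_assoc]
          refine mul_le_mul_of_nonneg_right ?_ (Real.exp_pos _).le
          have hc := card_sep_le (Λ.filter fun ζ => n ζ = m) ξ hK0
            (show 0 ≤ ((m : ℝ) + 1) / K by positivity) (fun c hc => by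
              have h4 := (Finset.mem_filter.1 hc).2
              have h5 := Nat.lt_floor_add_one (K * ‖ξ - c‖)
              simp only [hn] at h4
              rw [h4] at h5
              rw [norm_sub_rev, le_div_iff₀ hK0]
              linarith)
            (fun c hc c' hc' => h2 c (Finset.mem_filter.1 hc).1 c' (Finset.mem_filter.1 hc').1)
          refine hc.trans ?_
          rw [← mul_pow, mul_div_cancel₀ _ hK0.ne']
          have : (0 : ℝ) ≤ m := Nat.cast_nonneg m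
          gcongr
          linarith
      _ ≤ 7 ^ d * C := by
          rw [← Finset.mul_sum]
          exact mul_le_mul_of_nonneg_left (hC _) (by positivity)

open Classical in
/-- `K/2`-separated centres: at most `5^(d+1)` in a `K`-ball -/
theorem card_near_le {ι : Type*} (𝒞 : Finset ι) (p : ι → V d × ℝ) {K : ℝ} (hK : 0 < K)
    (hs : ∀ c ∈ 𝒞, ∀ c' ∈ 𝒞, c ≠ c' → K / 2 ≤ dist (p c) (p c')) (y : V d × ℝ) :
    ((𝒞.filter fun c => p c ∈ closedBall y K).card : ℝ) ≤ 5 ^ (d + 1) := by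
  set f : ι → V d × ℝ := fun c => (2 / K) • (p c - y) with hf
  have hsep : ∀ c ∈ 𝒞, ∀ c' ∈ 𝒞, c ≠ c' → 1 ≤ ‖f c - f c'‖ := by
    intro c hc c' hc' hne
    have := hs c hc c' hc' hne
    simp only [hf]
    rw [← smul_sub, norm_smul, Real.norm_of_nonneg (by positivity), sub_sub_sub_cancel_right,
      ← dist_eq_norm, div_mul_eq_mul_div, le_div_iff₀ hK]
    linarith
  have hinj : Set.InjOn f (𝒞.filter fun c => p c ∈ closedBall y K) := by
    intro c hc c' hc' e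
    by_contra hne
    have := hsep c (Finset.mem_filter.1 hc).1 c' (Finset.mem_filter.1 hc').1 hne
    rw [e, sub_self, norm_zero] at this
    linarith
  rw [← Finset.card_image_of_injOn hinj]
  have h := Besicovitch.card_le_of_separated
    ((𝒞.filter fun c => p c ∈ closedBall y K).image f) (by
      intro c hc
      obtain ⟨c, hc', rfl⟩ := Finset.mem_image.1 hc
      have h1 := (Finset.mem_filter.1 hc').2
      rw [mem_closedBall, dist_eq_norm] at h1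
      simp only [hf]
      rw [norm_smul, Real.norm_of_nonneg (by positivity), div_mul_eq_mul_div, div_le_iff₀ hK]
      linarith) (by
      intro c hc c' hc' hne
      obtain ⟨c, hc1, rfl⟩ := Finset.mem_image.1 hc
      obtain ⟨c', hc2, rfl⟩ := Finset.mem_image.1 hc'
      exact hsep c (Finset.mem_filter.1 hc1).1 c' (Finset.mem_filter.1 hc2).1
        (fun e => hne (by rw [e])))
  have hr : Module.finrank ℝ (V d × ℝ) = d + 1 := by
    simp [Module.finrank_prod]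
  rw [hr] at h
  exact_mod_cast h

open Classical in
/-- counting heavy separated centres by the mass -/
theorem count_le {ι : Type*} (X 𝒞 : Finset ι) (p : ι → V d × ℝ) (w : ι → ℝ)
    (hw : ∀ z ∈ X, 0 ≤ w z) {K N : ℝ} (hK : 0 < K)
    (hN : ∀ c ∈ 𝒞, N ≤ ms X p w (closedBall (p c) K))
    (hs : ∀ c ∈ 𝒞, ∀ c' ∈ 𝒞, c ≠ c' → K / 2 ≤ dist (p c) (p c')) (u : V d × ℝ) (r : ℝ) :
    N * ((𝒞.filter fun c => p c ∈ closedBall u r).card : ℝ) ≤
      5 ^ (d + 1) * ms X p w (closedBall u (r + K)) := by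
  set T := 𝒞.filter fun c => p c ∈ closedBall u r with hT
  calc N * (T.card : ℝ) = ∑ c ∈ T, N := by rw [Finset.sum_const, nsmul_eq_mul, mul_comm]
    _ ≤ ∑ c ∈ T, ms X p w (closedBall (p c) K) :=
        Finset.sum_le_sum fun c hc => hN c (Finset.mem_filter.1 hc).1
    _ = ∑ c ∈ T, ∑ z ∈ X, if p z ∈ closedBall (p c) K then w z else 0 := by
        simp only [ms, Finset.sum_filter]
    _ = ∑ z ∈ X, ∑ c ∈ T, if p z ∈ closedBall (p c) K then w z else 0 := Finset.sum_comm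
    _ ≤ ∑ z ∈ X, 5 ^ (d + 1) * if p z ∈ closedBall u (r + K) then w z else 0 := by
        refine Finset.sum_le_sum fun z hz => ?_
        rw [← Finset.sum_filter, Finset.sum_const, nsmul_eq_mul]
        by_cases h : p z ∈ closedBall u (r + K)
        · rw [if_pos h]
          refine mul_le_mul_of_nonneg_right ?_ (hw z hz)
          refine le_trans ?_ (card_near_le 𝒞 p hK hs (p z))
          refine Nat.cast_le.2 (Finset.card_le_card fun c hc => ?_)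
          obtain ⟨h1, h2⟩ := Finset.mem_filter.1 hc
          exact Finset.mem_filter.2 ⟨(Finset.mem_filter.1 h1).1, mem_closedBall_comm.1 h2⟩
        · rw [if_neg h]
          have : (T.filter fun c => p z ∈ closedBall (p c) K) = ∅ := by
            refine Finset.filter_eq_empty_iff.2 fun c hc h2 => h ?_
            have h3 := (Finset.mem_filter.1 hc).2
            rw [mem_closedBall] at h2 h3 ⊢
            linarith [dist_triangle (p z) (p c) u]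
          rw [this]; simp
    _ = _ := by simp only [ms, Finset.sum_filter, Finset.mul_sum]

end Crest.Agent.N76.II.L0
end

-- ▼ part N76/II/L0/Num
section

/-! # Row 76, leaf L0: summation of the pieces (helper66). -/

set_option autoImplicit false

namespace Crest.Agent.N76.II.L0

theorem min_le_geom {D y θ : ℝ} (hD : 0 ≤ D) (hy : 0 ≤ y) (h0 : 0 ≤ θ) (h1 : θ ≤ 1) :
    min D y ≤ D ^ (1 - θ) * y ^ θ := by
  have hm : 0 ≤ min D y := le_min hD hy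
  calc min D y = min D y ^ ((1 - θ) + θ) := by simp
    _ = min D y ^ (1 - θ) * min D y ^ θ := Real.rpow_add_of_nonneg hm (by linarith) h0
    _ ≤ _ := mul_le_mul (Real.rpow_le_rpow hm (min_le_left _ _) (by linarith))
        (Real.rpow_le_rpow hm (min_le_right _ _) h0) (by positivity) (by positivity)

theorem min_rpow_le {φ v θ : ℝ} (hφ : 0 ≤ φ) (hv : 0 ≤ v) (h0 : 0 ≤ θ) :
    min φ v ^ θ ≤ φ ^ (θ / 2) * v ^ (θ / 2) := by
  have hm : 0 ≤ min φ v := le_min hφ hv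
  calc min φ v ^ θ = min φ v ^ (θ / 2 + θ / 2) := by rw [add_halves]
    _ = min φ v ^ (θ / 2) * min φ v ^ (θ / 2) :=
        Real.rpow_add_of_nonneg hm (by linarith) (by linarith)
    _ ≤ _ := mul_le_mul (Real.rpow_le_rpow hm (min_le_left _ _) (by linarith))
        (Real.rpow_le_rpow hm (min_le_right _ _) (by linarith)) (by positivity) (by positivity)

theorem rpow_le_add_one {x θ : ℝ} (hx : 0 ≤ x) (h0 : 0 ≤ θ) (h1 : θ ≤ 1) : x ^ θ ≤ x + 1 :=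
  calc x ^ θ ≤ (x + 1) ^ θ := Real.rpow_le_rpow hx (by linarith) h0
    _ ≤ (x + 1) ^ (1 : ℝ) := Real.rpow_le_rpow_of_exponent_le (by linarith) h1
    _ = x + 1 := Real.rpow_one _

theorem kap_le {d : ℕ} (hd : 1 ≤ d) {θ CP ω N B D φ μ l : ℝ} (h0 : 0 < θ) (h1 : θ ≤ 1)
    (hCP : 0 ≤ CP) (hω : 0 ≤ ω) (hN : 0 ≤ N) (hB : 0 < B) (hD : 0 ≤ D) (hφ : 0 ≤ φ) (hμ : 1 ≤ μ)
    (hl : 0 ≤ l) :
    μ * min D (2 * N * (Real.exp (9 - l) * (2 * (l + 1)) ^ d * ω *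
        min φ (CP * (μ ^ (-(d : ℝ) / (4 * (θ / 16))) + 1 / (B ^ 8 * μ))))) ≤
      (2 * Real.exp 9 * 2 ^ d * ω + 1) * (CP + 1) * ((l + 1) ^ d * Real.exp (-θ * l)) *
        (D ^ (1 - θ) * N ^ θ * φ ^ (θ / 2) / μ + N / B ^ 8) := by
  have hμ0 : 0 < μ := by linarith
  set G₀ := 2 * Real.exp 9 * 2 ^ d * ω with hG₀
  have hG0 : 0 ≤ G₀ := by positivity
  set y := (l + 1) ^ d with hy
  have hy1 : 1 ≤ y := one_le_pow₀ (by linarith)
  set v₁ := CP * μ ^ (-(d : ℝ) / (4 * (θ / 16))) with hv₁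
  set v₂ := CP * (1 / (B ^ 8 * μ)) with hv₂
  have hv1 : 0 ≤ v₁ := by positivity
  have hv2 : 0 ≤ v₂ := by positivity
  set x := N * (G₀ * y) * Real.exp (-l) with hx
  have hx0 : 0 ≤ x := by positivity
  have e : 2 * N * (Real.exp (9 - l) * (2 * (l + 1)) ^ d * ω *
      min φ (CP * (μ ^ (-(d : ℝ) / (4 * (θ / 16))) + 1 / (B ^ 8 * μ)))) =
      x * min φ (v₁ + v₂) := by
    rw [hx, hG₀, hy, hv₁, hv₂, mul_add CP, mul_pow, sub_eq_add_neg, Real.exp_add]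
    ring
  rw [e]
  have h2 : min φ (v₁ + v₂) ≤ min φ v₁ + v₂ := by
    rw [← min_add_add_right]
    exact min_le_min (by linarith) le_rfl
  have h3 : min D (x * min φ (v₁ + v₂)) ≤ min D (x * min φ v₁) + x * v₂ := by
    rw [← min_add_add_right]
    refine min_le_min (by nlinarith [mul_nonneg hx0 hv2]) ?_
    exact (mul_le_mul_of_nonneg_left h2 hx0).trans (le_of_eq (mul_add _ _ _))
  have hGy : (G₀ * y) ^ θ ≤ (G₀ + 1) * y := by
    refine (rpow_le_add_one (by positivity) h0.le h1).trans ?_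
    linarith
  have hxθ : x ^ θ ≤ N ^ θ * ((G₀ + 1) * y) * Real.exp (-θ * l) := by
    rw [hx, Real.mul_rpow (by positivity) (by positivity), Real.mul_rpow hN (by positivity),
      ← Real.exp_mul, show -l * θ = -θ * l by ring]
    gcongr
  have hvθ : v₁ ^ (θ / 2) ≤ (CP + 1) * (1 / μ ^ 2) := by
    rw [hv₁, Real.mul_rpow hCP (by positivity), ← Real.rpow_mul hμ0.le]
    refine mul_le_mul (rpow_le_add_one hCP (by linarith) (by linarith)) ?_ (by positivity)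
      (by positivity)
    have e2 : -(d : ℝ) / (4 * (θ / 16)) * (θ / 2) = -(2 * d) := by field_simp; ring
    have hd' : (1 : ℝ) ≤ d := by exact_mod_cast hd
    rw [e2, one_div, ← Real.rpow_natCast, ← Real.rpow_neg hμ0.le]
    exact Real.rpow_le_rpow_of_exponent_le hμ (by push_cast; linarith)
  have h4 : min D (x * min φ v₁) ≤ D ^ (1 - θ) * ((N ^ θ * ((G₀ + 1) * y) * Real.exp (-θ * l)) *
      (φ ^ (θ / 2) * ((CP + 1) * (1 / μ ^ 2)))) := by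
    have hm : 0 ≤ min φ v₁ := le_min hφ hv1
    refine (min_le_geom hD (mul_nonneg hx0 hm) h0.le h1).trans ?_
    rw [Real.mul_rpow hx0 hm]
    refine mul_le_mul_of_nonneg_left (mul_le_mul hxθ ((min_rpow_le hφ hv1 h0.le).trans ?_)
      (by positivity) (by positivity)) (by positivity)
    gcongr
  have h5 : x * v₂ ≤ N * ((G₀ + 1) * y) * Real.exp (-θ * l) * ((CP + 1) * (1 / (B ^ 8 * μ))) := by
    rw [hx, hv₂]
    have : Real.exp (-l) ≤ Real.exp (-θ * l) := Real.exp_le_exp.2 (by nlinarith)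
    gcongr <;> linarith
  refine (mul_le_mul_of_nonneg_left (h3.trans (add_le_add h4 h5)) hμ0.le).trans (le_of_eq ?_)
  field_simp

theorem sum_kap_le {d : ℕ} (hd : 1 ≤ d) {θ CP ω : ℝ} (h0 : 0 < θ) (h1 : θ ≤ 1) (hCP : 0 ≤ CP)
    (hω : 0 ≤ ω) : ∃ C : ℝ, 0 ≤ C ∧ ∀ (M L : ℕ) (N B D φ : ℝ), 0 < N → 1 ≤ B → N ≤ B →
      (M : ℝ) + 1 ≤ 3 * B → 0 ≤ D → 0 ≤ φ →
      ∑ i ∈ Finset.range (M + 1) ×ˢ Finset.range (L + 1),
        ((i.1 : ℝ) + 1) ^ 2 * ((i.2 : ℝ) + 1) ^ (d + 2) * 2 ^ i.1 *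
        min D (2 * N * (Real.exp (9 - i.2) * (2 * ((i.2 : ℝ) + 1)) ^ d * ω *
          min φ (CP * (((2 : ℝ) ^ i.1) ^ (-(d : ℝ) / (4 * (θ / 16))) + 1 / (B ^ 8 * 2 ^ i.1))))) ≤
      C * (D ^ (1 - θ) * N ^ θ * φ ^ (θ / 2) + N ^ (2 / ((d : ℝ) + 2)) / B ^ 3) := by
  obtain ⟨C₁, hC₁, h₁⟩ := sum_pow_exp_le (2 * d + 2) h0
  obtain ⟨C₂, hC₂, h₂⟩ := sum_pow_exp_le 2 (Real.log_pos (by norm_num : (1 : ℝ) < 2))
  set G := (2 * Real.exp 9 * 2 ^ d * ω + 1) * (CP + 1) with hG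
  have hG0 : 0 ≤ G := by positivity
  refine ⟨G * ((C₂ + 27) * C₁), by positivity, fun M L N B D φ hN hB hNB hM hD hφ => ?_⟩
  have hB0 : 0 < B := by linarith
  set T := D ^ (1 - θ) * N ^ θ * φ ^ (θ / 2) with hT
  have hT0 : 0 ≤ T := by positivity
  have hq : N / B ^ 5 ≤ N ^ (2 / ((d : ℝ) + 2)) / B ^ 3 := by
    have hq0 : 0 ≤ 2 / ((d : ℝ) + 2) := by positivity
    have hq1 : 2 / ((d : ℝ) + 2) ≤ 1 := by
      rw [div_le_one (by positivity)]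
      have : (0 : ℝ) ≤ d := Nat.cast_nonneg d
      linarith
    have h3 : N ≤ N ^ (2 / ((d : ℝ) + 2)) * B := by
      calc N = N ^ (2 / ((d : ℝ) + 2)) * N ^ (1 - 2 / ((d : ℝ) + 2)) := by
            rw [← Real.rpow_add hN]; simp
        _ ≤ N ^ (2 / ((d : ℝ) + 2)) * B ^ (1 : ℝ) := by
            refine mul_le_mul_of_nonneg_left ?_ (by positivity)
            exact (Real.rpow_le_rpow hN.le hNB (by linarith)).trans
              (Real.rpow_le_rpow_of_exponent_le hB (by linarith))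
        _ = _ := by rw [Real.rpow_one]
    rw [div_le_div_iff₀ (by positivity) (by positivity)]
    calc N * B ^ 3 ≤ N ^ (2 / ((d : ℝ) + 2)) * B * B ^ 3 := by gcongr
      _ = N ^ (2 / ((d : ℝ) + 2)) * B ^ 4 := by ring
      _ ≤ _ := by gcongr; norm_num
  have hm : ∑ m ∈ Finset.range (M + 1), ((m : ℝ) + 1) ^ 2 * (T / 2 ^ m + N / B ^ 8) ≤
      (C₂ + 27) * (T + N ^ (2 / ((d : ℝ) + 2)) / B ^ 3) := by
    have h3 : ∑ m ∈ Finset.range (M + 1), ((m : ℝ) + 1) ^ 2 * (T / 2 ^ m) ≤ C₂ * T := by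
      refine le_trans (le_of_eq ?_) (mul_le_mul_of_nonneg_right (h₂ (Finset.range (M + 1))) hT0)
      rw [Finset.sum_mul]
      refine Finset.sum_congr rfl fun m _ => ?_
      rw [neg_mul, Real.exp_neg, mul_comm (Real.log 2), Real.exp_nat_mul,
        Real.exp_log (by norm_num)]
      ring
    have h4 : ∑ m ∈ Finset.range (M + 1), ((m : ℝ) + 1) ^ 2 * (N / B ^ 8) ≤ 27 * (N / B ^ 5) := by
      refine (Finset.sum_le_card_nsmul _ _ ((3 * B) ^ 2 * (N / B ^ 8)) fun m hm => ?_).trans ?_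
      · have : (m : ℝ) ≤ M := by exact_mod_cast Nat.le_of_lt_succ (Finset.mem_range.1 hm)
        gcongr
        linarith
      · rw [Finset.card_range, nsmul_eq_mul]
        push_cast
        calc ((M : ℝ) + 1) * ((3 * B) ^ 2 * (N / B ^ 8)) ≤ 3 * B * ((3 * B) ^ 2 * (N / B ^ 8)) := by
              gcongr
          _ = _ := by field_simp; norm_num
    simp only [mul_add, Finset.sum_add_distrib]
    have h5 : 0 ≤ N ^ (2 / ((d : ℝ) + 2)) / B ^ 3 := by positivity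
    nlinarith
  calc _ ≤ ∑ i ∈ Finset.range (M + 1) ×ˢ Finset.range (L + 1), G *
        ((((i.1 : ℝ) + 1) ^ 2 * (T / 2 ^ i.1 + N / B ^ 8)) *
          (((i.2 : ℝ) + 1) ^ (2 * d + 2) * Real.exp (-θ * i.2))) := by
        refine Finset.sum_le_sum fun i _ => ?_
        have h := kap_le hd h0 h1 hCP hω hN.le hB0 hD hφ (μ := 2 ^ i.1)
          (one_le_pow₀ (by norm_num)) (Nat.cast_nonneg i.2)
        rw [mul_assoc _ ((2 : ℝ) ^ i.1)]
        refine (mul_le_mul_of_nonneg_left h (by positivity)).trans (le_of_eq ?_)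
        rw [hG, hT]
        ring
    _ = G * ((∑ m ∈ Finset.range (M + 1), ((m : ℝ) + 1) ^ 2 * (T / 2 ^ m + N / B ^ 8)) *
          ∑ l ∈ Finset.range (L + 1), ((l : ℝ) + 1) ^ (2 * d + 2) * Real.exp (-θ * l)) := by
        rw [← Finset.mul_sum, Finset.sum_mul_sum, Finset.sum_product]
    _ ≤ G * (((C₂ + 27) * (T + N ^ (2 / ((d : ℝ) + 2)) / B ^ 3)) * C₁) := by
        refine mul_le_mul_of_nonneg_left (mul_le_mul hm (h₁ _) (by positivity) (by positivity)) hG0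
    _ = _ := by ring

end Crest.Agent.N76.II.L0
end

-- ▼ part N76/II/L0/Main

/-! # Row 76, leaf L0: `LB → PhiB → Stop → L0` (helper66). -/

set_option autoImplicit false

open MeasureTheory Set Metric
open scoped ENNReal RealInnerProductSpace

namespace Crest.Agent.N76.II

open Crest.Agent.N76.Red (V)
open Crest.Agent.N76.G

namespace L0

variable {d : ℕ}

theorem ms_mono {ι α : Type*} {X : Finset ι} {p : ι → α} {w : ι → ℝ} (hw : ∀ z ∈ X, 0 ≤ w z)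
    {E E' : Set α} (h : E ⊆ E') : ms X p w E ≤ ms X p w E' := by
  classical
  unfold ms
  exact Finset.sum_le_sum_of_subset_of_nonneg (fun z hz => Finset.mem_filter.2
    ⟨(Finset.mem_filter.1 hz).1, h (Finset.mem_filter.1 hz).2⟩)
    fun z hz _ => hw z (Finset.mem_filter.1 hz).1

open Classical in
theorem count_small {ι : Type*} {X 𝒞 : Finset ι} {p : ι → V d × ℝ} {w : ι → ℝ}
    (hw : ∀ z ∈ X, 0 ≤ w z) {K N S η : ℝ} (hK : 0 < K) (hN0 : 0 < N) (hη : η ≤ 1)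
    (hN : ∀ c ∈ 𝒞, N ≤ ms X p w (closedBall (p c) K))
    (hs : ∀ c ∈ 𝒞, ∀ c' ∈ 𝒞, c ≠ c' → K / 2 ≤ dist (p c) (p c')) {u : V d × ℝ}
    (hu : ∀ r, K ≤ r → r ≤ S / 4 → ms X p w (closedBall u r) ≤ 4 * N * (r / K) ^ η)
    (r : ℝ) (h1 : K ≤ r) (h2 : r ≤ S / 8) :
    ((𝒞.filter fun c => p c ∈ closedBall u r).card : ℝ) ≤ 8 * 10 ^ (d + 1) * (r / K) ^ η := by
  have h3 := count_le X 𝒞 p w hw hK hN hs u r
  have h4 : ms X p w (closedBall u (r + K)) ≤ 4 * N * (2 * r / K) ^ η :=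
    (ms_mono hw (closedBall_subset_closedBall (by linarith))).trans
      (hu (2 * r) (by linarith) (by linarith))
  have hr : 0 ≤ r / K := div_nonneg (by linarith) hK.le
  have h5 : (2 * r / K) ^ η ≤ 2 * (r / K) ^ η := by
    rw [mul_div_assoc, Real.mul_rpow (by norm_num) hr]
    refine mul_le_mul_of_nonneg_right ?_ (by positivity)
    exact (Real.rpow_le_rpow_of_exponent_le (by norm_num) hη).trans (Real.rpow_one 2).le
  have h6 : (5 : ℝ) ^ (d + 1) ≤ 10 ^ (d + 1) := by gcongr; norm_num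
  refine le_of_mul_le_mul_left (h3.trans ?_) hN0
  calc 5 ^ (d + 1) * ms X p w (closedBall u (r + K))
      ≤ 5 ^ (d + 1) * (4 * N * (2 * (r / K) ^ η)) := by
        refine mul_le_mul_of_nonneg_left (h4.trans ?_) (by positivity)
        gcongr
    _ ≤ 10 ^ (d + 1) * (4 * N * (2 * (r / K) ^ η)) := by gcongr
    _ = _ := by ring

open Classical in
theorem count_large {ι : Type*} {X 𝒞 : Finset ι} {p : ι → V d × ℝ} {w : ι → ℝ} {R B K N : ℝ}
    (hR : 1 ≤ R) (hB : 1 ≤ B) (hX : Reg R B X p w) (hK : 0 < K) (hN0 : 1 / B ^ 6 ≤ N)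
    (hN : ∀ c ∈ 𝒞, N ≤ ms X p w (closedBall (p c) K))
    (hs : ∀ c ∈ 𝒞, ∀ c' ∈ 𝒞, c ≠ c' → K / 2 ≤ dist (p c) (p c')) (u : V d × ℝ)
    (r : ℝ) (h1 : 1 ≤ r) :
    ((𝒞.filter fun c => p c ∈ closedBall u r).card : ℝ) ≤ 8 * 10 ^ (d + 1) * B ^ 7 * prd d R r := by
  have hp := one_le_prd (d := d) R r
  have hB0 : 0 < B := by linarith
  have h7 : 1 ≤ B ^ 7 := one_le_pow₀ hB
  have h6 : (5 : ℝ) ^ (d + 1) ≤ 10 ^ (d + 1) := by gcongr; norm_num
  have h10 : (0 : ℝ) < 10 ^ (d + 1) := by positivity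
  rcases le_total r K with h | h
  · have h2 : ((𝒞.filter fun c => p c ∈ closedBall u r).card : ℝ) ≤ 5 ^ (d + 1) :=
      le_trans (Nat.cast_le.2 (Finset.card_le_card fun c hc => Finset.mem_filter.2
        ⟨(Finset.mem_filter.1 hc).1, closedBall_subset_closedBall h (Finset.mem_filter.1 hc).2⟩))
        (card_near_le 𝒞 p hK hs u)
    calc _ ≤ (10 : ℝ) ^ (d + 1) := h2.trans h6
      _ = 1 * 10 ^ (d + 1) * 1 * 1 := by ring
      _ ≤ _ := by gcongr; norm_num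
  · have h3 := count_le X 𝒞 p w hX.1 hK hN hs u r
    have h4 : ms X p w (closedBall u (r + K)) ≤ B * (2 ^ (d + 1) * prd d R r) :=
      (ms_mono hX.1 (closedBall_subset_closedBall (by linarith))).trans
        ((hX.2 u (2 * r) (by linarith)).trans (mul_le_mul_of_nonneg_left
          (prd_mul_le hR (by linarith) (by norm_num)) hB0.le))
    have h5 : 1 ≤ B ^ 6 * N := by rwa [div_le_iff₀ (by positivity), mul_comm] at hN0
    set n := ((𝒞.filter fun c => p c ∈ closedBall u r).card : ℝ) with hn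
    have hn0 : 0 ≤ n := Nat.cast_nonneg _
    calc n ≤ B ^ 6 * N * n := le_mul_of_one_le_left hn0 h5
      _ = B ^ 6 * (N * n) := mul_assoc _ _ _
      _ ≤ B ^ 6 * (5 ^ (d + 1) * (B * (2 ^ (d + 1) * prd d R r))) :=
          mul_le_mul_of_nonneg_left (h3.trans (mul_le_mul_of_nonneg_left h4 (by positivity)))
            (by positivity)
      _ = 1 * 10 ^ (d + 1) * B ^ 7 * prd d R r := by
          rw [show (10 : ℝ) = 5 * 2 by norm_num, mul_pow]; ring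
      _ ≤ _ := by gcongr; norm_num

theorem log_card_le {n : ℕ} {B : ℝ} (hB : 1 ≤ B) (h : Real.log (n + 1) ≤ B) :
    (Nat.log 2 n : ℝ) + 1 ≤ 3 * B := by
  have h1 : ((2 ^ Nat.log 2 n : ℕ) : ℝ) ≤ ((n + 1 : ℕ) : ℝ) :=
    Nat.cast_le.2 (Nat.pow_log_le_add_one 2 n)
  push_cast at h1
  have h2 := Real.log_le_log (by positivity) h1
  rw [Real.log_pow] at h2
  have h3 := Real.log_two_gt_d9
  have h4 : (0 : ℝ) ≤ Nat.log 2 n := Nat.cast_nonneg _
  nlinarith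

end L0

open L0 in
theorem l0_of (d : ℕ) (hd : 1 ≤ d) : LB d → PhiB d → Stop d → L0 d := by
  classical
  rintro ⟨CL, hCL, hLB⟩ hPhi ⟨C₂, B₀, hC₂, hStop⟩ θ hθ0 hθ1
  obtain ⟨CP, hCP, hP⟩ := hPhi (θ / 16) (8 * 10 ^ (d + 1)) (by positivity) (by linarith)
    (one_le_mul_of_one_le_of_one_le (by norm_num) (one_le_pow₀ (by norm_num)))
  obtain ⟨CN, hCN, hnet⟩ := exists_dirnet d
  obtain ⟨CS, hCS, hsum⟩ := sum_kap_le hd hθ0 hθ1.le hCP (om_nonneg d)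
  set E := 12 * om d ^ 2 * (CL * (2 + Real.exp Real.pi * C₂) * Real.exp 5) with hE
  have hE0 : 0 ≤ E := by positivity
  have hEC : 0 ≤ E * CS := by positivity
  have h9 : 1 ≤ 2 ^ d * Real.exp 9 :=
    one_le_mul_of_one_le_of_one_le (one_le_pow₀ (by norm_num)) (Real.one_le_exp (by norm_num))
  set C := CN + C₂ + E * CS + 3 * (2 ^ d * Real.exp 9) with hC
  refine ⟨θ / 16, by positivity, by linarith, C, max B₀ 1, by linarith, ?_⟩
  intro R B K N a t b hR hB hBK hKS hBS hN1 hNB hKa hKaB haS hb1 hbB ι X p w hX 𝒞 hlog hN hsep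
    hgr ht
  have hB1 : 1 ≤ B := (le_max_right _ _).trans hB
  have hB0 : 0 < B := by linarith
  have hK : 1 ≤ K := hB1.trans hBK
  have hK0 : 0 < K := by linarith
  have hN0 : 0 < N := lt_of_lt_of_le (by positivity) hN1
  set S := Ssc (d + 1) R with hS
  have hS1 : 1 ≤ S := one_le_Ssc hR _
  have hS0 : 0 < S := by linarith
  set rlo := S ^ 2 / B ^ 30 with hrlo
  have hr0 : 0 < rlo := by positivity
  have hr : K * a ≤ rlo := by rwa [hrlo, le_div_iff₀ (by positivity)]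
  have hb' : K * ((b + 1) * K) ≤ rlo := by
    rw [hrlo, le_div_iff₀ (by positivity)]
    calc K * ((b + 1) * K) * B ^ 30 ≤ K * ((B + B) * K) * B ^ 30 := by gcongr
      _ = 2 * K ^ 2 * B ^ 31 := by ring
      _ ≤ S * S := by
          have : 2 * K ^ 2 ≤ S := by nlinarith [sq_nonneg K]
          gcongr
      _ = S ^ 2 := by ring
  obtain ⟨Λ, hΛ3, hΛ, hΛc, hΛs⟩ := hnet K hK
  have hKK : K ^ 2 * B ^ 30 ≤ S ^ 2 := le_trans (by rw [pow_two]; gcongr) hKaB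
  choose! J js Ω hJ using fun (ζ : V d) (hζ : ‖ζ‖ ≤ 4) =>
    hStop R B K N hR ((le_max_left _ _).trans hB) hK hKK hN1 hNB ι X p w hX 𝒞 hN hsep ζ hζ rlo rfl
  have hJ' := fun ζ (hζ : ζ ∈ Λ) => hJ ζ ((hΛ3 ζ hζ).trans (by norm_num))
  have hSD : ∀ ζ ∈ Λ, SD 𝒞 p K rlo a C₂ (rlo / (10 * K)) ζ (J ζ) (js ζ) (Ω ζ) := fun ζ hζ => by
    obtain ⟨h1, h2, h3, h4, h5, -⟩ := hJ' ζ hζ
    exact ⟨by linarith, h2, h3, h4, h5⟩
  refine ⟨Λ, fun ζ => WW rlo (J ζ) (Ω ζ), hΛc.trans (by gcongr; linarith),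
    fun ξ => (hΛs ξ).trans (by linarith), fun ζ hζ => ?_, fun ζ hζ u => ?_, ?_⟩
  · have h := nice_WW hr0 (J ζ) (hSD ζ hζ).2.2.2.1
    have e : 2 / rlo = 2 * B ^ 30 / S ^ 2 := by rw [hrlo]; field_simp
    rwa [e] at h
  · refine ((hJ' ζ hζ).2.2.2.2.2 u).trans (mul_le_mul_of_nonneg_right (by linarith) ?_)
    exact add_nonneg (vv_nonneg hX.1 (by positivity) u) (by positivity)
  intro Y π D hY hD0 hπ hm hD c φ₀ Ef Φ hc hφ hEf hΦ
  have hw : ∀ z ∈ Y, 0 ≤ w z := fun z hz => hX.1 z (hY hz)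
  have h := energy hCL hLB hSD hΛ hK hKa hr hC₂ (by linarith : 0 ≤ b) (by positivity : 0 ≤ 2 * N)
    hb' ht (fun m => CP * (((2 : ℝ) ^ m) ^ (-(d : ℝ) / (4 * (θ / 16))) + 1 / (B ^ 8 * 2 ^ m)))
    (fun m => by positivity)
    (fun k hk m => hP R B K hR hB1 hK hKS
      (le_trans (pow_le_pow_right₀ hB1 (by norm_num)) hBS) ι 𝒞 p (p k)
      (count_small hX.1 hK0 hN0 (by linarith) hN hsep (hgr k hk))
      (count_large hR hB1 hX hK0 hN1 hN hsep (p k)) (2 ^ m) (by positivity))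
    hw hD0 hπ hm hD hc hφ hΦ
  refine h.trans (add_le_add ?_ ?_)
  · have ha2 : 0 ≤ a ^ 2 := by positivity
    refine mul_le_mul_of_nonneg_right ?_ (integral_nonneg fun β => mul_nonneg
      (Finset.sum_nonneg fun ζ hζ => mul_nonneg (Real.exp_pos _).le
        (xray_nonneg' (nice_WW hr0 _ (hSD ζ hζ).2.2.2.1) (by linarith) β)) (by positivity))
    refine (mul_le_mul_of_nonneg_left (hsum _ _ N B D φ₀ hN0 hB1 hNB (log_card_le hB1 hlog)
      hD0 hφ) hE0).trans ?_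
    rw [← mul_assoc]
    exact mul_le_mul_of_nonneg_right (by linarith) (by positivity)
  · have h0 : 0 ≤ ∑ z ∈ Y, w z := Finset.sum_nonneg hw
    have h1 : 0 ≤ ∫ β, ‖c β‖ ^ 2 := integral_nonneg fun β => by positivity
    have h2 : Ef + 2 ^ d * Real.exp (9 - b) * ∫ β, ‖c β‖ ^ 2 ≤
        2 ^ d * Real.exp 9 * (Ef + Real.exp (-b) * ∫ β, ‖c β‖ ^ 2) := by
      rw [sub_eq_add_neg, Real.exp_add]
      nlinarith
    calc 3 * (∑ z ∈ Y, w z) * (Ef + 2 ^ d * Real.exp (9 - b) * ∫ β, ‖c β‖ ^ 2)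
        ≤ 3 * (∑ z ∈ Y, w z) * (2 ^ d * Real.exp 9 * (Ef + Real.exp (-b) * ∫ β, ‖c β‖ ^ 2)) :=
          mul_le_mul_of_nonneg_left h2 (by positivity)
      _ = 3 * (2 ^ d * Real.exp 9) * (∑ z ∈ Y, w z) * (Ef + Real.exp (-b) * ∫ β, ‖c β‖ ^ 2) := by
          ring
      _ ≤ _ := by
          refine mul_le_mul_of_nonneg_right (mul_le_mul_of_nonneg_right (by linarith) h0) ?_
          positivity

end Crest.Agent.N76.II
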